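import Vale.Agent.P034.H52.Exp

set_option linter.all false

namespace Vale.Agent.P034.H52

open Finset Vale.Agent.P034

variable {X : Type*} [Fintype X] [DecidableEq X]

/-- The main step: if no cover of `F` costs less than `1/2` at `q`, and every `H` in `F` carries
its own nonnegative polynomial `g H` with value at least `1` at `H`, then the expected maximum
of the polynomials, at a random set of marginals at least `(640/3) q`, is at least `29/100`. -/
theorem core (F : Finset (Finset X)) (g : Finset X → Finset X → ℝ)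
    (hg : ∀ H ∈ F, ∀ S, 0 ≤ g H S)
    (hF : ∀ H ∈ F, 1 ≤ ∑ S ∈ H.powerset, g H S) (q : X → ℝ) (hq : ∀ x, 0 < q x)
    (hns : ∀ G : Finset (Finset X), (∀ H ∈ F, ∃ S ∈ G, S ⊆ H) →
      1 / 2 ≤ ∑ S ∈ G, ∏ x ∈ S, q x)
    (r : X → ℝ) (hqr : ∀ x, 640 / 3 * q x ≤ r x) (hr1 : ∀ x, r x ≤ 1)
    (b : Finset X → ℝ)
    (hb : ∀ H ∈ F, ∀ W : Finset X, ∑ S ∈ W.powerset, 2 ^ S.card * g H S ≤ b W) :
    29 / 100 ≤ ∑ W : Finset X, PP r W * b W := by
  classical
  have hFne : F.Nonempty := by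
    by_contra hcon
    rw [Finset.not_nonempty_iff_eq_empty] at hcon
    have := hns ∅ (by rw [hcon]; simp)
    rw [Finset.sum_empty] at this
    linarith only [this]
  set B : Finset X → ℝ := fun W => F.sup' hFne (fun H => ∑ S ∈ W.powerset, 2 ^ S.card * g H S)
    with hB
  have hBb : ∀ W, B W ≤ b W := fun W => Finset.sup'_le _ _ (fun H hH => hb H hH W)
  have hterm : ∀ H ∈ F, ∀ W, ∑ S ∈ W.powerset, 2 ^ S.card * g H S ≤ B W := fun H hH W =>
    Finset.le_sup' (f := fun H => ∑ S ∈ W.powerset, 2 ^ S.card * g H S) hH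
  have hBmono : ∀ W W' : Finset X, W ⊆ W' → B W ≤ B W' := by
    intro W W' hWW
    apply Finset.sup'_le
    intro H hH
    refine le_trans ?_ (hterm H hH W')
    apply Finset.sum_le_sum_of_subset_of_nonneg (Finset.powerset_mono.mpr hWW)
    intro S _ _
    exact mul_nonneg (by positivity) (hg H hH S)
  choose J hJ hJ2 using fun x => H953.exists_J (q x) (hq x)
  have hlv : ∀ x j, 0 ≤ H953.lv (q x) (J x) j :=
    fun x => H953.lv_nonneg (q x) (hq x).le (J x) (hJ x)
  set Ω : Finset (X → ℕ) := Fintype.piFinset (fun x => range (J x + 1)) with hΩ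
  have hΩmem : ∀ φ : X → ℕ, φ ∈ Ω → ∀ x, φ x ≤ J x := by
    intro φ h x
    rw [hΩ, Fintype.mem_piFinset] at h
    have := h x
    rw [mem_range] at this
    omega
  have htot : ∑ φ ∈ Ω, ∏ x, H953.lv (q x) (J x) (φ x) = 1 := by
    rw [hΩ, ← Finset.prod_univ_sum (fun x : X => range (J x + 1))
      (fun x j => H953.lv (q x) (J x) j)]
    simp only [H953.sum_lv, prod_const_one]
  have hbad := H953.bad_prob q hq J hJ F (fun H => lamOf (g H) H)
    (fun H hH x => lamOf_nonneg (g H) (hg H hH) H x)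
    (fun H hH => lamOf_sum_le (g H) (hg H hH) H (hF H hH))
    (fun H _ x hx => lamOf_supp (g H) H x hx) hns
    (Ω.filter (fun φ => ∀ H ∈ F, 1 / 12 < ∑ x, lamOf (g H) H x * φ x)) (by
      intro φ hφ
      rw [mem_filter] at hφ
      exact ⟨hΩmem φ hφ.1, hφ.2⟩)
  have hgood : 29 / 50 ≤ ∑ φ ∈ Ω.filter
      (fun φ => ¬ ∀ H ∈ F, 1 / 12 < ∑ x, lamOf (g H) H x * φ x),
      ∏ x, H953.lv (q x) (J x) (φ x) := by
    have := Finset.sum_filter_add_sum_filter_not Ω
      (fun φ : X → ℕ => ∀ H ∈ F, 1 / 12 < ∑ x, lamOf (g H) H x * φ x)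
      (fun φ => ∏ x, H953.lv (q x) (J x) (φ x))
    linarith only [htot, hbad, this]
  have hξ0 : ∀ j : ℕ, (0 : ℝ) ≤ (1 / 64 : ℝ) ^ j := fun j => by positivity
  have hξ1 : ∀ j : ℕ, (1 / 64 : ℝ) ^ j ≤ 1 := fun j => pow_le_one₀ (by norm_num) (by norm_num)
  have hval : ∀ φ : X → ℕ, (¬ ∀ H ∈ F, 1 / 12 < ∑ x, lamOf (g H) H x * φ x) →
      1 / 2 ≤ ∑ W : Finset X, PP (fun x => (1 / 64 : ℝ) ^ φ x) W * B W := by
    intro φ hφ
    push Not at hφ
    obtain ⟨H, hH, hle⟩ := hφ
    have h1 := H953.good_bound (g H) (hg H hH) H (hF H hH) φ hle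
    have h2 : ∑ S : Finset X, g H S * ∏ x ∈ S, (2 * (1 / 64 : ℝ) ^ φ x)
        = ∑ S : Finset X, (2 ^ S.card * g H S) * ∏ x ∈ S, (1 / 64 : ℝ) ^ φ x := by
      apply Finset.sum_congr rfl
      intro S _
      rw [Finset.prod_mul_distrib, Finset.prod_const]
      ring
    rw [h2, ← PP_poly] at h1
    refine h1.trans ?_
    apply Finset.sum_le_sum
    intro W _
    exact mul_le_mul_of_nonneg_left (hterm H hH W)
      (PP_nonneg _ (fun x => hξ0 _) (fun x => hξ1 _) W)
  have hE1 : 29 / 100 ≤ ∑ φ ∈ Ω, (∏ x, H953.lv (q x) (J x) (φ x)) *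
      ∑ W : Finset X, PP (fun x => (1 / 64 : ℝ) ^ φ x) W * B W := by
    have hBnn : ∀ W, 0 ≤ B W := by
      intro W
      obtain ⟨H, hH⟩ := hFne
      refine le_trans ?_ (hterm H hH W)
      exact Finset.sum_nonneg (fun S _ => mul_nonneg (by positivity) (hg H hH S))
    calc (29 / 100 : ℝ) ≤ (∑ φ ∈ Ω.filter
            (fun φ => ¬ ∀ H ∈ F, 1 / 12 < ∑ x, lamOf (g H) H x * φ x),
          ∏ x, H953.lv (q x) (J x) (φ x)) * (1 / 2) := by linarith only [hgood]
      _ ≤ ∑ φ ∈ Ω.filter (fun φ => ¬ ∀ H ∈ F, 1 / 12 < ∑ x, lamOf (g H) H x * φ x),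
          (∏ x, H953.lv (q x) (J x) (φ x)) *
            ∑ W : Finset X, PP (fun x => (1 / 64 : ℝ) ^ φ x) W * B W := by
        rw [Finset.sum_mul]
        apply Finset.sum_le_sum
        intro φ hφ
        rw [mem_filter] at hφ
        apply mul_le_mul_of_nonneg_left (hval φ hφ.2)
          (Finset.prod_nonneg (fun x _ => hlv x _))
      _ ≤ _ := by
        apply Finset.sum_le_sum_of_subset_of_nonneg (Finset.filter_subset _ _)
        intro φ _ _
        apply mul_nonneg (Finset.prod_nonneg (fun x _ => hlv x _))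
        apply Finset.sum_nonneg
        intro W _
        exact mul_nonneg (PP_nonneg _ (fun x => hξ0 _) (fun x => hξ1 _) W) (hBnn W)
  have hE2 : ∑ φ ∈ Ω, (∏ x, H953.lv (q x) (J x) (φ x)) *
      ∑ W : Finset X, PP (fun x => (1 / 64 : ℝ) ^ φ x) W * B W
      = ∑ W : Finset X, PP (fun x => ∑ j ∈ range (J x + 1),
          H953.lv (q x) (J x) j * (1 / 64 : ℝ) ^ j) W * B W := by
    simp only [Finset.mul_sum]
    rw [Finset.sum_comm]
    apply Finset.sum_congr rfl
    intro W _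
    rw [← PP_mix J (fun x => H953.lv (q x) (J x)) (fun x => H953.sum_lv (q x) (J x))
      (fun j => (1 / 64 : ℝ) ^ j) W, Finset.sum_mul]
    apply Finset.sum_congr rfl
    intro φ _
    ring
  rw [hE2] at hE1
  refine hE1.trans ((PP_mono _ r ?_ ?_ hr1 B hBmono).trans ?_)
  · intro x
    exact Finset.sum_nonneg (fun j _ => mul_nonneg (hlv x j) (hξ0 j))
  · intro x
    exact (H953.exp_bound (q x) (hq x) (J x) (hJ2 x)).trans (hqr x)
  · apply Finset.sum_le_sum
    intro W _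
    apply mul_le_mul_of_nonneg_left (hBb W)
    apply PP_nonneg r _ hr1
    intro x
    have h1 := hq x
    have h2 := hqr x
    linarith only [h1, h2]

end Vale.Agent.P034.H52
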