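import Vale.Agent.P034.H953.Core

set_option linter.all false

namespace Vale.Agent.P034.H52

open Finset Vale.Agent.P034

variable {X : Type*} [Fintype X] [DecidableEq X]

/-- Probability that the random set with marginals `r` equals `W`. -/
noncomputable def PP (r : X → ℝ) (W : Finset X) : ℝ :=
  (∏ x ∈ W, r x) * ∏ x ∈ Wᶜ, (1 - r x)

theorem sum_prod_compl (a b : X → ℝ) :
    ∑ W : Finset X, (∏ x ∈ W, a x) * ∏ x ∈ Wᶜ, b x = ∏ x, (a x + b x) := by
  rw [Finset.prod_add, Finset.powerset_univ]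
  apply Finset.sum_congr rfl
  intro W _
  rw [Finset.compl_eq_univ_sdiff]

theorem PP_nonneg (r : X → ℝ) (h0 : ∀ x, 0 ≤ r x) (h1 : ∀ x, r x ≤ 1) (W : Finset X) :
    0 ≤ PP r W :=
  mul_nonneg (Finset.prod_nonneg (fun x _ => h0 x))
    (Finset.prod_nonneg (fun x _ => by linarith only [h1 x]))

theorem PP_sum (r : X → ℝ) : ∑ W : Finset X, PP r W = 1 := by
  unfold PP
  rw [sum_prod_compl]
  simp

theorem PP_eq (r : X → ℝ) (W : Finset X) :
    PP r W = ∏ x, if x ∈ W then r x else 1 - r x := by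
  unfold PP
  rw [← Finset.prod_mul_prod_compl W]
  congr 1
  · apply Finset.prod_congr rfl
    intro x hx
    rw [if_pos hx]
  · apply Finset.prod_congr rfl
    intro x hx
    rw [mem_compl] at hx
    rw [if_neg hx]

theorem PP_superset (ξ : X → ℝ) (S : Finset X) :
    ∑ W : Finset X, (if S ⊆ W then PP ξ W else 0) = ∏ x ∈ S, ξ x := by
  have h1 : ∀ W : Finset X, (if S ⊆ W then PP ξ W else 0)
      = (∏ x ∈ W, ξ x) * ∏ x ∈ Wᶜ, (if x ∈ S then 0 else 1 - ξ x) := by
    intro W
    split_ifs with h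
    · unfold PP
      congr 1
      apply Finset.prod_congr rfl
      intro x hx
      rw [mem_compl] at hx
      rw [if_neg (fun hS => hx (h hS))]
    · rw [Finset.not_subset] at h
      obtain ⟨y, hy, hyW⟩ := h
      rw [Finset.prod_eq_zero (i := y) (mem_compl.mpr hyW) (by rw [if_pos hy]), mul_zero]
  rw [Finset.sum_congr rfl (fun W _ => h1 W), sum_prod_compl]
  have h2 : ∀ x, (ξ x + if x ∈ S then 0 else 1 - ξ x) = if x ∈ S then ξ x else 1 := by
    intro x
    split_ifs <;> ring
  rw [Finset.prod_congr rfl (fun x _ => h2 x), Finset.prod_ite_mem, Finset.univ_inter]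

/-- expectation of a polynomial -/
theorem PP_poly (ξ : X → ℝ) (c : Finset X → ℝ) :
    ∑ W : Finset X, PP ξ W * ∑ S ∈ W.powerset, c S = ∑ S : Finset X, c S * ∏ x ∈ S, ξ x := by
  have h1 : ∀ W : Finset X, PP ξ W * ∑ S ∈ W.powerset, c S
      = ∑ S : Finset X, c S * (if S ⊆ W then PP ξ W else 0) := by
    intro W
    have h2 : ∑ S ∈ W.powerset, c S = ∑ S : Finset X, if S ⊆ W then c S else 0 := by
      rw [← Finset.sum_filter]
      apply Finset.sum_congr _ (fun _ _ => rfl)
      ext S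
      simp only [mem_powerset, mem_filter, mem_univ, true_and]
    rw [h2, Finset.mul_sum]
    apply Finset.sum_congr rfl
    intro S _
    split_ifs <;> ring
  rw [Finset.sum_congr rfl (fun W _ => h1 W), Finset.sum_comm]
  apply Finset.sum_congr rfl
  intro S _
  rw [← Finset.mul_sum, PP_superset]

/-- random sets whose marginals are random -/
theorem PP_mix (J : X → ℕ) (l : X → ℕ → ℝ) (hl : ∀ x, ∑ j ∈ range (J x + 1), l x j = 1)
    (ξ : ℕ → ℝ) (W : Finset X) :
    ∑ φ ∈ Fintype.piFinset (fun x => range (J x + 1)),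
      (∏ x, l x (φ x)) * PP (fun x => ξ (φ x)) W
      = PP (fun x => ∑ j ∈ range (J x + 1), l x j * ξ j) W := by
  have h1 : ∀ φ : X → ℕ, (∏ x, l x (φ x)) * PP (fun x => ξ (φ x)) W
      = ∏ x, (l x (φ x) * if x ∈ W then ξ (φ x) else 1 - ξ (φ x)) := by
    intro φ
    rw [PP_eq, Finset.prod_mul_distrib]
  rw [Finset.sum_congr rfl (fun φ _ => h1 φ),
    ← Finset.prod_univ_sum (fun x : X => range (J x + 1))
      (fun x j => l x j * if x ∈ W then ξ j else 1 - ξ j), PP_eq]
  apply Finset.prod_congr rfl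
  intro x _
  split_ifs
  · rfl
  · have h2 : ∑ j ∈ range (J x + 1), l x j * (1 - ξ j)
        = ∑ j ∈ range (J x + 1), l x j - ∑ j ∈ range (J x + 1), l x j * ξ j := by
      rw [← Finset.sum_sub_distrib]
      apply Finset.sum_congr rfl
      intro j _
      ring
    rw [h2, hl]

/-- Thinning. -/
theorem PP_thin (r s : X → ℝ) (B : Finset X → ℝ) :
    ∑ W : Finset X, PP (fun x => r x * s x) W * B W
      = ∑ W' : Finset X, PP r W' *
          ∑ W ∈ W'.powerset, (∏ x ∈ W, s x) * (∏ x ∈ W' \ W, (1 - s x)) * B W := by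
  have h1 : ∀ W' : Finset X, PP r W' *
      ∑ W ∈ W'.powerset, (∏ x ∈ W, s x) * (∏ x ∈ W' \ W, (1 - s x)) * B W
      = ∑ W : Finset X, B W * ((∏ x ∈ W', (if x ∈ W then r x * s x else r x * (1 - s x))) *
          ∏ x ∈ W'ᶜ, (if x ∈ W then 0 else 1 - r x)) := by
    intro W'
    have h2 : ∑ W ∈ W'.powerset, (∏ x ∈ W, s x) * (∏ x ∈ W' \ W, (1 - s x)) * B W
        = ∑ W : Finset X, if W ⊆ W' then
            (∏ x ∈ W, s x) * (∏ x ∈ W' \ W, (1 - s x)) * B W else 0 := by
      rw [← Finset.sum_filter]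
      apply Finset.sum_congr _ (fun _ _ => rfl)
      ext S
      simp only [mem_powerset, mem_filter, mem_univ, true_and]
    rw [h2, Finset.mul_sum]
    apply Finset.sum_congr rfl
    intro W _
    split_ifs with h
    · have h3 : ∏ x ∈ W', (if x ∈ W then r x * s x else r x * (1 - s x))
          = (∏ x ∈ W', r x) * ((∏ x ∈ W, s x) * ∏ x ∈ W' \ W, (1 - s x)) := by
        have h4 : ∀ x ∈ W', (if x ∈ W then r x * s x else r x * (1 - s x))
            = r x * (if x ∈ W then s x else 1 - s x) := by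
          intro x _
          split_ifs <;> rfl
        rw [Finset.prod_congr rfl h4, Finset.prod_mul_distrib]
        congr 1
        rw [← Finset.prod_sdiff h, mul_comm]
        congr 1
        · apply Finset.prod_congr rfl
          intro x hx
          rw [if_pos hx]
        · apply Finset.prod_congr rfl
          intro x hx
          rw [mem_sdiff] at hx
          rw [if_neg hx.2]
      have h5 : ∏ x ∈ W'ᶜ, (if x ∈ W then (0 : ℝ) else 1 - r x) = ∏ x ∈ W'ᶜ, (1 - r x) := by
        apply Finset.prod_congr rfl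
        intro x hx
        rw [mem_compl] at hx
        rw [if_neg (fun hW => hx (h hW))]
      rw [h3, h5]
      unfold PP
      ring
    · rw [Finset.not_subset] at h
      obtain ⟨y, hy, hyW⟩ := h
      rw [Finset.prod_eq_zero (s := W'ᶜ) (i := y) (mem_compl.mpr hyW) (by rw [if_pos hy])]
      ring
  rw [Finset.sum_congr rfl (fun W' _ => h1 W'), Finset.sum_comm]
  apply Finset.sum_congr rfl
  intro W _
  rw [← Finset.mul_sum, sum_prod_compl, mul_comm, PP_eq]
  congr 1
  apply Finset.prod_congr rfl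
  intro x _
  split_ifs <;> ring

theorem PP_thin_div (m r : X → ℝ) (h0 : ∀ x, 0 ≤ m x) (hmr : ∀ x, m x ≤ r x)
    (B : Finset X → ℝ) :
    ∑ W : Finset X, PP m W * B W
      = ∑ W' : Finset X, PP r W' *
          ∑ W ∈ W'.powerset, (∏ x ∈ W, (m x / r x)) * (∏ x ∈ W' \ W, (1 - m x / r x)) * B W := by
  rw [← PP_thin]
  apply Finset.sum_congr rfl
  intro W _
  congr 2
  funext x
  rcases eq_or_ne (r x) 0 with h | h
  · have h1 := h0 x
    have h2 := hmr x
    rw [h] at h2
    rw [h, zero_mul]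
    linarith only [h1, h2]
  · field_simp

theorem PP_mono (m r : X → ℝ) (h0 : ∀ x, 0 ≤ m x) (hmr : ∀ x, m x ≤ r x) (h1 : ∀ x, r x ≤ 1)
    (B : Finset X → ℝ) (hB : ∀ W W' : Finset X, W ⊆ W' → B W ≤ B W') :
    ∑ W : Finset X, PP m W * B W ≤ ∑ W : Finset X, PP r W * B W := by
  rw [PP_thin_div m r h0 hmr]
  have hr0 : ∀ x, 0 ≤ r x := fun x => (h0 x).trans (hmr x)
  have hs0 : ∀ x, 0 ≤ m x / r x := fun x => div_nonneg (h0 x) (hr0 x)
  have hs1 : ∀ x, m x / r x ≤ 1 := fun x => div_le_one_of_le₀ (hmr x) (hr0 x)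
  apply Finset.sum_le_sum
  intro W' _
  apply mul_le_mul_of_nonneg_left _ (PP_nonneg r hr0 h1 W')
  calc ∑ W ∈ W'.powerset, (∏ x ∈ W, (m x / r x)) * (∏ x ∈ W' \ W, (1 - m x / r x)) * B W
      ≤ ∑ W ∈ W'.powerset, (∏ x ∈ W, (m x / r x)) * (∏ x ∈ W' \ W, (1 - m x / r x)) * B W' := by
        apply Finset.sum_le_sum
        intro W hW
        rw [mem_powerset] at hW
        apply mul_le_mul_of_nonneg_left (hB W W' hW)
        exact mul_nonneg (Finset.prod_nonneg (fun x _ => hs0 x))
          (Finset.prod_nonneg (fun x _ => by linarith only [hs1 x]))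
    _ = B W' := by
        rw [← Finset.sum_mul, ← Finset.prod_add]
        simp

end Vale.Agent.P034.H52
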