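import Vale.Agent.P034.H52.Poly

set_option linter.all false

namespace Vale.Agent.P034.H52

open Finset Vale.Agent.P034

variable {X : Type*} [Fintype X] [DecidableEq X]

theorem PP_lin (ξ τ : X → ℝ) :
    ∑ W : Finset X, PP ξ W * ∑ x ∈ W, τ x = ∑ x, ξ x * τ x := by
  have h1 : ∀ W : Finset X, PP ξ W * ∑ x ∈ W, τ x
      = ∑ x : X, τ x * (if ({x} : Finset X) ⊆ W then PP ξ W else 0) := by
    intro W
    have h2 : ∑ x ∈ W, τ x = ∑ x : X, if x ∈ W then τ x else 0 := by
      rw [← Finset.sum_filter]
      apply Finset.sum_congr _ (fun _ _ => rfl)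
      ext x
      simp only [mem_filter, mem_univ, true_and]
    rw [h2, Finset.mul_sum]
    apply Finset.sum_congr rfl
    intro x _
    simp only [singleton_subset_iff]
    split_ifs <;> ring
  rw [Finset.sum_congr rfl (fun W _ => h1 W), Finset.sum_comm]
  apply Finset.sum_congr rfl
  intro x _
  rw [← Finset.mul_sum, PP_superset, Finset.prod_singleton]
  ring

theorem thin_eq (s : X → ℝ) (W' : Finset X) (B : Finset X → ℝ) :
    ∑ W ∈ W'.powerset, (∏ x ∈ W, s x) * (∏ x ∈ W' \ W, (1 - s x)) * B W
      = ∑ W : Finset X, PP (fun x => if x ∈ W' then s x else 0) W * B W := by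
  have h1 : ∀ W : Finset X, PP (fun x => if x ∈ W' then s x else 0) W * B W
      = if W ⊆ W' then (∏ x ∈ W, s x) * (∏ x ∈ W' \ W, (1 - s x)) * B W else 0 := by
    intro W
    split_ifs with h
    · unfold PP
      congr 1
      congr 1
      · apply Finset.prod_congr rfl
        intro x hx
        simp only
        rw [if_pos (h hx)]
      · have h2 : Wᶜ = (W' \ W) ∪ W'ᶜ := by
          ext x
          simp only [mem_compl, mem_union, mem_sdiff]
          constructor
          · intro hx
            by_cases hx' : x ∈ W'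
            · exact Or.inl ⟨hx', hx⟩
            · exact Or.inr hx'
          · rintro (hx | hx)
            · exact hx.2
            · exact fun hW => hx (h hW)
        have h3 : Disjoint (W' \ W) W'ᶜ := by
          rw [Finset.disjoint_left]
          intro x hx hx'
          rw [mem_sdiff] at hx
          rw [mem_compl] at hx'
          exact hx' hx.1
        rw [h2, Finset.prod_union h3]
        have h4 : ∏ x ∈ W'ᶜ, (1 - if x ∈ W' then s x else 0) = 1 := by
          apply Finset.prod_eq_one
          intro x hx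
          rw [mem_compl] at hx
          rw [if_neg hx, sub_zero]
        rw [h4, mul_one]
        apply Finset.prod_congr rfl
        intro x hx
        rw [mem_sdiff] at hx
        simp only
        rw [if_pos hx.1]
    · rw [Finset.not_subset] at h
      obtain ⟨y, hy, hyW⟩ := h
      unfold PP
      rw [Finset.prod_eq_zero (i := y) hy (by rw [if_neg hyW])]
      ring
  rw [Finset.sum_congr rfl (fun W _ => h1 W), ← Finset.sum_filter]
  apply Finset.sum_congr _ (fun _ _ => rfl)
  ext S
  simp only [mem_powerset, mem_filter, mem_univ, true_and]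

/-- The selector process theorem for an arbitrary product measure. -/
theorem selector (p : X → ℝ) (hp0 : ∀ x, 0 ≤ p x) (hp1 : ∀ x, p x ≤ 1)
    (T : Set (X → ℝ)) (hT : ∀ t ∈ T, ∀ x, 0 ≤ t x)
    (s : Finset X → ℝ) (hs : ∀ W : Finset X, IsLUB ((fun t : X → ℝ => ∑ x ∈ W, t x) '' T) (s W))
    (hM : 0 < ∑ W : Finset X, PP p W * s W) (L : ℝ) (hL : 214 < L) :
    ∃ G : Finset (Finset X),
      (∀ W : Finset X, L * ∑ V : Finset X, PP p V * s V ≤ s W → ∃ S ∈ G, S ⊆ W) ∧
      ∑ S ∈ G, ∏ x ∈ S, p x ≤ 2568 / (L - 214) := by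
  classical
  set M := ∑ W : Finset X, PP p W * s W with hMdef
  have hle : ∀ t ∈ T, ∀ W : Finset X, ∑ x ∈ W, t x ≤ s W := fun t ht W =>
    (hs W).1 ⟨t, ht, rfl⟩
  have hTne : T.Nonempty := by
    by_contra hcon
    rw [Set.not_nonempty_iff_eq_empty] at hcon
    have h1 := (hs ∅).2 (show s ∅ - 1 ∈ upperBounds _ by
      rw [hcon, Set.image_empty]
      simp)
    linarith only [h1]
  obtain ⟨t0, ht0⟩ := hTne
  have hs0 : ∀ W, 0 ≤ s W := fun W =>
    (Finset.sum_nonneg (fun x _ => hT t0 ht0 x)).trans (hle t0 ht0 W)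
  set K : Finset X := univ.filter (fun x => 214 * p x ≤ 1) with hK
  have hmemK : ∀ x, x ∈ K ↔ 214 * p x ≤ 1 := by
    intro x
    rw [hK, mem_filter]
    simp only [mem_univ, true_and]
  set r : X → ℝ := fun x => if x ∈ K then 214 * p x else 1 with hr
  set σ : X → ℝ := fun x => if x ∈ K then 1 / 214 else p x with hσ
  have hr0 : ∀ x, 0 ≤ r x := by
    intro x
    simp only [hr]
    split_ifs
    · have := hp0 x; positivity
    · norm_num
  have hr1 : ∀ x, r x ≤ 1 := by
    intro x
    simp only [hr]
    split_ifs with h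
    · exact (hmemK x).mp h
    · exact le_rfl
  have hσ0 : ∀ x, 0 ≤ σ x := by
    intro x
    simp only [hσ]
    split_ifs
    · norm_num
    · exact hp0 x
  have hσ1 : ∀ x, σ x ≤ 1 := by
    intro x
    simp only [hσ]
    split_ifs
    · norm_num
    · exact hp1 x
  have hrσ : (fun x => r x * σ x) = p := by
    funext x
    simp only [hr, hσ]
    split_ifs <;> ring
  -- the part of the index set with large marginals
  have hbig : ∀ t ∈ T, ∑ x ∈ Kᶜ, t x ≤ 214 * M := by
    intro t ht
    have h1 : ∑ x, p x * t x ≤ M := by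
      rw [← PP_lin]
      apply Finset.sum_le_sum
      intro W _
      exact mul_le_mul_of_nonneg_left (hle t ht W) (PP_nonneg p hp0 hp1 W)
    have h2 : ∑ x ∈ Kᶜ, t x ≤ 214 * ∑ x, p x * t x := by
      rw [Finset.mul_sum]
      calc ∑ x ∈ Kᶜ, t x ≤ ∑ x ∈ Kᶜ, 214 * (p x * t x) := by
            apply Finset.sum_le_sum
            intro x hx
            rw [mem_compl, hmemK] at hx
            push Not at hx
            have := hT t ht x
            nlinarith only [hx, this]
        _ ≤ _ := by
            apply Finset.sum_le_sum_of_subset_of_nonneg (Finset.subset_univ _)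
            intro x _ _
            have := hT t ht x
            have := hp0 x
            positivity
    linarith only [h1, h2]
  -- the expectation on the rest
  have hA : ∑ W : Finset X, PP r W * s (W ∩ K) ≤ 214 * M := by
    have h1 : ∑ W : Finset X, PP p W * s (W ∩ K) ≤ M := by
      apply Finset.sum_le_sum
      intro W _
      apply mul_le_mul_of_nonneg_left _ (PP_nonneg p hp0 hp1 W)
      apply (hs (W ∩ K)).2
      rintro _ ⟨t, ht, rfl⟩
      refine le_trans ?_ (hle t ht W)
      apply Finset.sum_le_sum_of_subset_of_nonneg Finset.inter_subset_left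
      intro x _ _
      exact hT t ht x
    have h2 := PP_thin r σ (fun W => s (W ∩ K))
    simp only [hrσ] at h2
    rw [h2] at h1
    have h3 : ∑ W' : Finset X, PP r W' * (1 / 214 * s (W' ∩ K)) ≤ M := by
      refine le_trans ?_ h1
      apply Finset.sum_le_sum
      intro W' _
      apply mul_le_mul_of_nonneg_left _ (PP_nonneg r hr0 hr1 W')
      have h4 : s (W' ∩ K) ≤ 214 * ∑ W ∈ W'.powerset,
          (∏ x ∈ W, σ x) * (∏ x ∈ W' \ W, (1 - σ x)) * s (W ∩ K) := by
        apply (hs (W' ∩ K)).2
        rintro _ ⟨t, ht, rfl⟩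
        show ∑ x ∈ W' ∩ K, t x ≤ _
        rw [thin_eq]
        have h5 : ∑ W : Finset X, PP (fun x => if x ∈ W' then σ x else 0) W *
            ∑ x ∈ W, (if x ∈ K then t x else 0)
            ≤ ∑ W : Finset X, PP (fun x => if x ∈ W' then σ x else 0) W * s (W ∩ K) := by
          apply Finset.sum_le_sum
          intro W _
          apply mul_le_mul_of_nonneg_left
          · have h6 : ∑ x ∈ W, (if x ∈ K then t x else 0) = ∑ x ∈ W ∩ K, t x := by
              rw [Finset.sum_ite_mem]
            rw [h6]
            exact hle t ht (W ∩ K)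
          · apply PP_nonneg
            · intro x
              split_ifs
              · exact hσ0 x
              · exact le_rfl
            · intro x
              split_ifs
              · exact hσ1 x
              · exact zero_le_one
        rw [PP_lin] at h5
        have h7 : ∑ x, (if x ∈ W' then σ x else 0) * (if x ∈ K then t x else 0)
            = 1 / 214 * ∑ x ∈ W' ∩ K, t x := by
          rw [Finset.mul_sum, ← Finset.univ_inter (W' ∩ K), ← Finset.sum_ite_mem]
          apply Finset.sum_congr rfl
          intro x _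
          by_cases hx1 : x ∈ W'
          · by_cases hx2 : x ∈ K
            · rw [if_pos hx1, if_pos hx2, if_pos (mem_inter.mpr ⟨hx1, hx2⟩)]
              simp only [hσ]
              rw [if_pos hx2]
            · rw [if_neg hx2, if_neg (fun h => hx2 (mem_inter.mp h).2), mul_zero]
          · rw [if_neg hx1, if_neg (fun h => hx1 (mem_inter.mp h).1), zero_mul]
        rw [h7] at h5
        linarith only [h5]
      linarith only [h4]
    have h8 : ∑ W' : Finset X, PP r W' * (1 / 214 * s (W' ∩ K))
        = 1 / 214 * ∑ W : Finset X, PP r W * s (W ∩ K) := by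
      rw [Finset.mul_sum]
      apply Finset.sum_congr rfl
      intro W _
      ring
    rw [h8] at h3
    linarith only [h3]
  -- choose the cheapest cover
  set 𝒞 : Finset (Finset (Finset X)) :=
    univ.filter (fun G => ∀ W : Finset X, L * M ≤ s W → ∃ S ∈ G, S ⊆ W) with h𝒞
  have hne : 𝒞.Nonempty := by
    refine ⟨{∅}, ?_⟩
    rw [h𝒞, mem_filter]
    exact ⟨mem_univ _, fun H _ => ⟨∅, mem_singleton_self _, Finset.empty_subset _⟩⟩
  obtain ⟨G0, hG0, hmin⟩ := 𝒞.exists_min_image (fun G => ∑ S ∈ G, ∏ x ∈ S, p x) hne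
  rw [h𝒞, mem_filter] at hG0
  refine ⟨G0, hG0.2, ?_⟩
  set c := ∑ S ∈ G0, ∏ x ∈ S, p x with hc
  have hstep : ∀ L' : ℝ, 214 < L' → L' < L → c * (L' - 214) ≤ 2568 := by
    intro L' hL1 hL2
    have hD : 0 < (L' - 214) * M := mul_pos (by linarith only [hL1]) hM
    obtain ⟨G, hG, hcost⟩ := linear r hr0 hr1
      ((fun (t : X → ℝ) (x : X) => (if x ∈ K then t x else 0) / ((L' - 214) * M)) '' T)
      (by
        rintro _ ⟨t, ht, rfl⟩ x
        apply div_nonneg _ hD.le
        split_ifs
        · exact hT t ht x
        · exact le_rfl)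
      (fun W => s (W ∩ K) / ((L' - 214) * M)) (fun W => div_nonneg (hs0 _) hD.le)
      (by
        rintro _ ⟨t, ht, rfl⟩ W
        show ∑ x ∈ W, (if x ∈ K then t x else 0) / ((L' - 214) * M) ≤ _
        rw [← Finset.sum_div, Finset.sum_ite_mem]
        exact div_le_div_of_nonneg_right (hle t ht (W ∩ K)) hD.le)
    have hcov : G.filter (fun S => S ⊆ K) ∈ 𝒞 := by
      rw [h𝒞, mem_filter]
      refine ⟨mem_univ _, ?_⟩
      intro W hW
      have h1 : L' * M < s W := lt_of_lt_of_le (mul_lt_mul_of_pos_right hL2 hM) hW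
      obtain ⟨_, ⟨t, ht, rfl⟩, h2⟩ := (lt_isLUB_iff (hs W)).mp h1
      have h3 : ∑ x ∈ W, t x ≤ ∑ x ∈ W ∩ K, t x + ∑ x ∈ Kᶜ, t x := by
        rw [← Finset.sum_inter_add_sum_sdiff W K]
        apply add_le_add_right
        apply Finset.sum_le_sum_of_subset_of_nonneg
        · intro x hx
          rw [mem_sdiff] at hx
          exact mem_compl.mpr hx.2
        · intro x _ _
          exact hT t ht x
      have h4 := hbig t ht
      obtain ⟨S, hS, hSW⟩ := hG (W ∩ K) ⟨_, ⟨t, ht, rfl⟩, by
        show 1 ≤ ∑ x ∈ W ∩ K, (if x ∈ K then t x else 0) / ((L' - 214) * M)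
        rw [← Finset.sum_div, Finset.sum_ite_mem, Finset.inter_assoc, Finset.inter_self,
          one_le_div hD]
        simp only at h2
        linarith only [h2, h3, h4]⟩
      exact ⟨S, mem_filter.mpr ⟨hS, hSW.trans Finset.inter_subset_right⟩,
        hSW.trans Finset.inter_subset_left⟩
    have h1 := hmin _ hcov
    have h2 : ∑ S ∈ G.filter (fun S => S ⊆ K), ∏ x ∈ S, p x ≤ ∑ S ∈ G, ∏ x ∈ S, (r x / 214) := by
      have h3 : ∀ S ∈ G.filter (fun S => S ⊆ K), ∏ x ∈ S, p x = ∏ x ∈ S, (r x / 214) := by
        intro S hS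
        rw [mem_filter] at hS
        apply Finset.prod_congr rfl
        intro x hx
        simp only [hr]
        rw [if_pos (hS.2 hx)]
        ring
      rw [Finset.sum_congr rfl h3]
      apply Finset.sum_le_sum_of_subset_of_nonneg (Finset.filter_subset _ _)
      intro S _ _
      exact Finset.prod_nonneg (fun x _ => by have := hr0 x; positivity)
    have h3 : ∑ W : Finset X, PP r W * (s (W ∩ K) / ((L' - 214) * M))
        = (∑ W : Finset X, PP r W * s (W ∩ K)) / ((L' - 214) * M) := by
      rw [Finset.sum_div]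
      apply Finset.sum_congr rfl
      intro W _
      ring
    rw [h3] at hcost
    have h4 : c ≤ 12 * ((∑ W : Finset X, PP r W * s (W ∩ K)) / ((L' - 214) * M)) :=
      (h1.trans h2).trans hcost
    have h5 : (∑ W : Finset X, PP r W * s (W ∩ K)) / ((L' - 214) * M) ≤ 214 / (L' - 214) := by
      rw [div_le_div_iff₀ hD (by linarith only [hL1])]
      have h6 := mul_le_mul_of_nonneg_right hA (show (0 : ℝ) ≤ L' - 214 by linarith only [hL1])
      linarith only [h6]
    have h6 : c ≤ 2568 / (L' - 214) := by
      have h7 : (2568 : ℝ) / (L' - 214) = 12 * (214 / (L' - 214)) := by ring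
      rw [h7]
      linarith only [h4, h5]
    rwa [le_div_iff₀ (by linarith only [hL1])] at h6
  rw [le_div_iff₀ (by linarith only [hL])]
  apply le_of_forall_pos_lt_add
  intro η hη
  have hc0 : 0 ≤ c := Finset.sum_nonneg (fun S _ => Finset.prod_nonneg (fun x _ => hp0 x))
  set θ := min ((L - 214) / 2) (η / (2 * (c + 1))) with hθ
  have hθ0 : 0 < θ := lt_min (by linarith only [hL]) (by positivity)
  have h1 := hstep (L - θ)
    (by have := min_le_left ((L - 214) / 2) (η / (2 * (c + 1))); linarith only [this, hL, hθ])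
    (by linarith only [hθ0])
  have h2 : c * θ ≤ η / 2 := by
    have h3 : θ ≤ η / (2 * (c + 1)) := min_le_right _ _
    have h4 : c * θ ≤ (c + 1) * (η / (2 * (c + 1))) := by
      have := mul_le_mul_of_nonneg_left h3 (show (0 : ℝ) ≤ c + 1 by linarith only [hc0])
      nlinarith only [this, hθ0]
    have h5 : (c + 1) * (η / (2 * (c + 1))) = η / 2 := by
      field_simp
    linarith only [h4, h5]
  have h6 : c * (L - 214) = c * (L - θ - 214) + c * θ := by ring
  linarith only [h1, h2, h6, hη]

end Vale.Agent.P034.H52
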