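import Vale.Agent.P034.H52.Scale

set_option linter.all false

namespace Vale.Agent.P034.H52

open Finset Vale.Agent.P034

variable {X : Type*} [Fintype X] [DecidableEq X]

/-- Polynomial selector processes for an arbitrary product measure. -/
theorem poly (r : X → ℝ) (hr0 : ∀ x, 0 ≤ r x) (hr1 : ∀ x, r x ≤ 1)
    (T : Set (Finset X → ℝ)) (hT : ∀ t ∈ T, ∀ S, 0 ≤ t S)
    (b : Finset X → ℝ) (hb0 : ∀ W, 0 ≤ b W)
    (hb : ∀ t ∈ T, ∀ W : Finset X, ∑ S ∈ W.powerset, 2 ^ S.card * t S ≤ b W) :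
    ∃ G : Finset (Finset X),
      (∀ H : Finset X, (∃ t ∈ T, 1 ≤ ∑ S ∈ H.powerset, t S) → ∃ S ∈ G, S ⊆ H) ∧
      ∑ S ∈ G, ∏ x ∈ S, (r x / 214) ≤ 6 * ∑ W : Finset X, PP r W * b W := by
  classical
  set F : Finset (Finset X) := univ.filter (fun H => ∃ t ∈ T, 1 ≤ ∑ S ∈ H.powerset, t S) with hF
  have hmem : ∀ H, H ∈ F ↔ ∃ t ∈ T, 1 ≤ ∑ S ∈ H.powerset, t S := by
    intro H
    rw [hF, mem_filter]
    simp only [mem_univ, true_and]
  let g : Finset X → Finset X → ℝ := fun H =>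
    if h : ∃ t ∈ T, 1 ≤ ∑ S ∈ H.powerset, t S then h.choose else 0
  have hg : ∀ H ∈ F, g H ∈ T ∧ 1 ≤ ∑ S ∈ H.powerset, g H S := by
    intro H hH
    have h := (hmem H).mp hH
    simp only [g]
    rw [dif_pos h]
    exact h.choose_spec
  set 𝒞 : Finset (Finset (Finset X)) := univ.filter (fun G => ∀ H ∈ F, ∃ S ∈ G, S ⊆ H) with h𝒞
  have hne : 𝒞.Nonempty := by
    refine ⟨{∅}, ?_⟩
    rw [h𝒞, mem_filter]
    exact ⟨mem_univ _, fun H _ => ⟨∅, mem_singleton_self _, Finset.empty_subset _⟩⟩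
  obtain ⟨G0, hG0, hmin⟩ := 𝒞.exists_min_image (fun G => ∑ S ∈ G, ∏ x ∈ S, (r x / 214)) hne
  rw [h𝒞, mem_filter] at hG0
  refine ⟨G0, fun H hH => hG0.2 H ((hmem H).mpr hH), ?_⟩
  have hstep : ∀ δ : ℝ, 0 < δ → δ < 1 → ∑ S ∈ G0, ∏ x ∈ S, (r x / 214)
      ≤ 6 * ∑ W : Finset X, PP (fun x => r x + δ * (1 - r x)) W * b W := by
    intro δ hδ hδ1
    obtain ⟨G, hG, hcost⟩ := scale_pos F g (fun H hH => hT _ (hg H hH).1)
      (fun H hH => (hg H hH).2) (fun x => r x + δ * (1 - r x))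
      (fun x => by
        have h1 := hr0 x
        have h2 := hr1 x
        rcases eq_or_lt_of_le h1 with h3 | h3
        · rw [← h3]; linarith only [hδ]
        · nlinarith only [h3, h2, hδ])
      (fun x => by
        have h2 := hr1 x
        nlinarith only [h2, hδ1]) b hb0
      (fun H hH => hb _ (hg H hH).1)
    refine (hmin G ?_).trans (le_trans ?_ hcost)
    · rw [h𝒞, mem_filter]
      exact ⟨mem_univ _, hG⟩
    · apply Finset.sum_le_sum
      intro S _
      apply Finset.prod_le_prod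
      · intro x _
        have := hr0 x
        positivity
      · intro x _
        apply div_le_div_of_nonneg_right _ (by norm_num)
        have h2 := hr1 x
        nlinarith only [h2, hδ]
  have hcont : Filter.Tendsto (fun δ : ℝ => 6 * ∑ W : Finset X,
        PP (fun x => r x + δ * (1 - r x)) W * b W)
      (nhdsWithin 0 (Set.Ioi 0)) (nhds (6 * ∑ W : Finset X,
        PP (fun x => r x + 0 * (1 - r x)) W * b W)) := by
    have : Continuous (fun δ : ℝ => 6 * ∑ W : Finset X,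
        PP (fun x => r x + δ * (1 - r x)) W * b W) := by
      unfold PP
      fun_prop
    exact (this.tendsto 0).mono_left nhdsWithin_le_nhds
  simp only [zero_mul, add_zero] at hcont
  apply ge_of_tendsto hcont
  have h1 : Set.Ioo (0 : ℝ) 1 ∈ nhdsWithin (0 : ℝ) (Set.Ioi 0) :=
    Ioo_mem_nhdsGT one_pos
  filter_upwards [h1] with δ hδ
  exact hstep δ hδ.1 hδ.2

/-- The linear case, all marginals. -/
theorem linear (r : X → ℝ) (hr0 : ∀ x, 0 ≤ r x) (hr1 : ∀ x, r x ≤ 1)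
    (T : Set (X → ℝ)) (hT : ∀ t ∈ T, ∀ x, 0 ≤ t x)
    (b : Finset X → ℝ) (hb0 : ∀ W, 0 ≤ b W)
    (hb : ∀ t ∈ T, ∀ W : Finset X, ∑ x ∈ W, t x ≤ b W) :
    ∃ G : Finset (Finset X),
      (∀ H : Finset X, (∃ t ∈ T, 1 ≤ ∑ x ∈ H, t x) → ∃ S ∈ G, S ⊆ H) ∧
      ∑ S ∈ G, ∏ x ∈ S, (r x / 214) ≤ 12 * ∑ W : Finset X, PP r W * b W := by
  classical
  have key : ∀ (c : ℝ) (t : X → ℝ) (W : Finset X),
      ∑ S ∈ W.powerset, c ^ S.card * (∑ x : X, if S = {x} then t x else 0) = c * ∑ x ∈ W, t x := by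
    intro c t W
    simp only [Finset.mul_sum]
    rw [Finset.sum_comm]
    have h1 : ∀ x : X, ∑ S ∈ W.powerset, c ^ S.card * (if S = {x} then t x else 0)
        = if x ∈ W then c * t x else 0 := by
      intro x
      simp only [mul_ite, mul_zero]
      rw [Finset.sum_ite_eq']
      simp only [mem_powerset, singleton_subset_iff, card_singleton, pow_one]
    rw [Finset.sum_congr rfl (fun x _ => h1 x), ← Finset.sum_filter]
    apply Finset.sum_congr _ (fun _ _ => rfl)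
    ext x
    simp only [mem_filter, mem_univ, true_and]
  obtain ⟨G, hG, hcost⟩ := poly r hr0 hr1
    ((fun (t : X → ℝ) (S : Finset X) => ∑ x : X, if S = {x} then t x else 0) '' T)
    (by
      rintro _ ⟨t, ht, rfl⟩ S
      exact Finset.sum_nonneg (fun x _ => by split_ifs; exacts [hT t ht x, le_rfl]))
    (fun W => 2 * b W) (fun W => by have := hb0 W; positivity)
    (by
      rintro _ ⟨t, ht, rfl⟩ W
      show ∑ S ∈ W.powerset, 2 ^ S.card * (∑ x : X, if S = {x} then t x else 0) ≤ 2 * b W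
      rw [key]
      exact mul_le_mul_of_nonneg_left (hb t ht W) (by norm_num))
  refine ⟨G, ?_, ?_⟩
  · rintro H ⟨t, ht, h1⟩
    apply hG
    refine ⟨_, ⟨t, ht, rfl⟩, ?_⟩
    have h2 := key 1 t H
    simp only [one_pow, one_mul] at h2
    show 1 ≤ ∑ S ∈ H.powerset, (∑ x : X, if S = {x} then t x else 0)
    rw [h2]
    exact h1
  · refine hcost.trans (le_of_eq ?_)
    have h3 : ∑ W : Finset X, PP r W * (2 * b W) = 2 * ∑ W : Finset X, PP r W * b W := by
      rw [Finset.mul_sum]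
      apply Finset.sum_congr rfl
      intro W _
      ring
    rw [h3]
    ring

end Vale.Agent.P034.H52
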