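import Vale.Agent.P034.H52.Core
import Vale.Agent.P034.H953.Scale

set_option linter.all false

namespace Vale.Agent.P034.H52

open Finset Vale.Agent.P034

variable {X : Type*} [Fintype X] [DecidableEq X]

/-- the `i`-th slice -/
def slice (M : ℕ) (i : Fin M) (W' : Finset (Fin M × X)) : Finset X :=
  univ.filter (fun x => (i, x) ∈ W')

theorem mem_slice {M : ℕ} {i : Fin M} {W' : Finset (Fin M × X)} {x : X} :
    x ∈ slice M i W' ↔ (i, x) ∈ W' := by
  simp [slice]

theorem map_sub_iff {M : ℕ} {i : Fin M} {W' : Finset (Fin M × X)} {S : Finset X} :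
    S.map (H953.emb X M i) ⊆ W' ↔ S ⊆ slice M i W' := by
  constructor
  · intro h x hx
    rw [mem_slice]
    exact h (by rw [mem_map]; exact ⟨x, hx, rfl⟩)
  · intro h y hy
    rw [mem_map] at hy
    obtain ⟨x, hx, rfl⟩ := hy
    exact mem_slice.mp (h hx)

theorem slice_prob (M : ℕ) (i : Fin M) (r : X → ℝ) (W0 : Finset X) :
    ∑ W' : Finset (Fin M × X), (if slice M i W' = W0 then PP (fun y => r y.2) W' else 0)
      = PP r W0 := by
  classical
  set a : Fin M × X → ℝ := fun y => if y.1 = i then (if y.2 ∈ W0 then r y.2 else 0) else r y.2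
    with ha
  set b : Fin M × X → ℝ :=
    fun y => if y.1 = i then (if y.2 ∈ W0 then 0 else 1 - r y.2) else 1 - r y.2 with hb
  have h1 : ∀ W' : Finset (Fin M × X),
      (if slice M i W' = W0 then PP (fun y => r y.2) W' else 0)
      = (∏ y ∈ W', a y) * ∏ y ∈ W'ᶜ, b y := by
    intro W'
    split_ifs with h
    · unfold PP
      congr 1
      · apply Finset.prod_congr rfl
        rintro ⟨j, x⟩ hy
        simp only [ha]
        split_ifs with h2 h3
        · rfl
        · exfalso
          apply h3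
          rw [← h, mem_slice, ← h2]
          exact hy
        · rfl
      · apply Finset.prod_congr rfl
        rintro ⟨j, x⟩ hy
        rw [mem_compl] at hy
        simp only [hb]
        split_ifs with h2 h3
        · exfalso
          apply hy
          rw [← h, mem_slice, ← h2] at h3
          exact h3
        · rfl
        · rfl
    · have h2 : ∃ x, ¬ (x ∈ slice M i W' ↔ x ∈ W0) := by
        by_contra hcon
        push Not at hcon
        exact h (Finset.ext hcon)
      obtain ⟨x, hx⟩ := h2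
      rw [mem_slice] at hx
      by_cases h3 : (i, x) ∈ W'
      · have h4 : x ∉ W0 := fun h5 => hx ⟨fun _ => h5, fun _ => h3⟩
        rw [Finset.prod_eq_zero (i := (i, x)) h3 (by simp [ha, h4]),
          zero_mul]
      · have h4 : x ∈ W0 := by
          by_contra h5
          exact hx ⟨fun h => absurd h h3, fun h => absurd h h5⟩
        rw [Finset.prod_eq_zero (s := W'ᶜ) (i := (i, x)) (mem_compl.mpr h3)
          (by simp [hb, h4]), mul_zero]
  rw [Finset.sum_congr rfl (fun W' _ => h1 W'), sum_prod_compl, Fintype.prod_prod_type]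
  have h2 : ∀ j : Fin M, ∏ x : X, (a (j, x) + b (j, x)) = if j = i then PP r W0 else 1 := by
    intro j
    split_ifs with hj
    · rw [PP_eq]
      apply Finset.prod_congr rfl
      intro x _
      simp only [ha, hb]
      rw [if_pos hj, if_pos hj]
      split_ifs <;> ring
    · apply Finset.prod_eq_one
      intro x _
      simp only [ha, hb]
      rw [if_neg hj, if_neg hj]
      ring
  rw [Finset.prod_congr rfl (fun j _ => h2 j), Finset.prod_ite_eq' univ i (fun _ => PP r W0)]
  simp

theorem slice_exp (M : ℕ) (i : Fin M) (r : X → ℝ) (b : Finset X → ℝ) :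
    ∑ W' : Finset (Fin M × X), PP (fun y => r y.2) W' * b (slice M i W')
      = ∑ W : Finset X, PP r W * b W := by
  have h1 : ∀ W' : Finset (Fin M × X), PP (fun y => r y.2) W' * b (slice M i W')
      = ∑ W0 : Finset X, (if slice M i W' = W0 then PP (fun y => r y.2) W' else 0) * b W0 := by
    intro W'
    simp only [ite_mul, zero_mul, Finset.sum_ite_eq, mem_univ, if_true]
  rw [Finset.sum_congr rfl (fun W' _ => h1 W'), Finset.sum_comm]
  apply Finset.sum_congr rfl
  intro W0 _
  rw [← Finset.sum_mul, slice_prob]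

/-- Polynomial selector processes, positive marginals, chosen polynomials. -/
theorem scale_pos (F : Finset (Finset X)) (g : Finset X → Finset X → ℝ)
    (hg : ∀ H ∈ F, ∀ S, 0 ≤ g H S)
    (hF : ∀ H ∈ F, 1 ≤ ∑ S ∈ H.powerset, g H S)
    (r : X → ℝ) (hr0 : ∀ x, 0 < r x) (hr1 : ∀ x, r x ≤ 1)
    (b : Finset X → ℝ) (hb0 : ∀ W, 0 ≤ b W)
    (hb : ∀ H ∈ F, ∀ W : Finset X, ∑ S ∈ W.powerset, 2 ^ S.card * g H S ≤ b W) :
    ∃ G : Finset (Finset X), (∀ H ∈ F, ∃ S ∈ G, S ⊆ H) ∧
      ∑ S ∈ G, ∏ x ∈ S, (r x / 214) ≤ 6 * ∑ W : Finset X, PP r W * b W := by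
  classical
  set E := ∑ W : Finset X, PP r W * b W with hE
  have hE0 : 0 ≤ E := Finset.sum_nonneg (fun W _ =>
    mul_nonneg (PP_nonneg r (fun x => (hr0 x).le) hr1 W) (hb0 W))
  set 𝒞 : Finset (Finset (Finset X)) := univ.filter (fun G => ∀ H ∈ F, ∃ S ∈ G, S ⊆ H) with h𝒞
  have hone : ({∅} : Finset (Finset X)) ∈ 𝒞 := by
    rw [h𝒞, mem_filter]
    exact ⟨mem_univ _, fun H _ => ⟨∅, mem_singleton_self _, Finset.empty_subset _⟩⟩
  obtain ⟨G0, hG0, hmin⟩ := 𝒞.exists_min_image (fun G => ∑ S ∈ G, ∏ x ∈ S, (r x / 214))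
    ⟨_, hone⟩
  rw [h𝒞, mem_filter] at hG0
  refine ⟨G0, hG0.2, ?_⟩
  by_contra hcon
  push Not at hcon
  set ε := ∑ S ∈ G0, ∏ x ∈ S, (r x / 214) with hε
  have hε1 : ε ≤ 1 := by
    have := hmin _ hone
    simpa using this
  have hεpos : 0 < ε := lt_of_le_of_lt (by positivity) hcon
  set M : ℕ := ⌈1 / (2 * ε)⌉₊ with hM
  have hM1 : 1 / 2 ≤ (M : ℝ) * ε := by
    have h1 : 1 / (2 * ε) ≤ (M : ℝ) := Nat.le_ceil _
    rw [div_le_iff₀ (by positivity)] at h1
    linarith only [h1]
  have hM2 : (M : ℝ) * ε < 1 / 2 + ε := by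
    have h1 : (M : ℝ) < 1 / (2 * ε) + 1 := Nat.ceil_lt_add_one (by positivity)
    have h2 := mul_lt_mul_of_pos_right h1 hεpos
    have h3 : (1 / (2 * ε) + 1) * ε = 1 / 2 + ε := by
      field_simp
    rwa [h3] at h2
  have hM0 : 0 < M := by
    by_contra h0
    have : M = 0 := by omega
    rw [this] at hM1
    simp at hM1
    linarith only [hM1]
  set F' : Finset (Finset (Fin M × X)) :=
    (univ : Finset (Fin M)).biUnion (fun i => F.image (fun H => H.map (H953.emb X M i))) with hF'
  have hmemF' : ∀ H' ∈ F', ∃ a : Fin M × Finset X, a.2 ∈ F ∧ a.2.map (H953.emb X M a.1) = H' := by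
    intro H' hH'
    rw [hF', mem_biUnion] at hH'
    obtain ⟨i, _, hi⟩ := hH'
    rw [mem_image] at hi
    obtain ⟨H, hH, rfl⟩ := hi
    exact ⟨(i, H), hH, rfl⟩
  let g' : Finset (Fin M × X) → Finset (Fin M × X) → ℝ := fun H' S' =>
    if h : ∃ a : Fin M × Finset X, a.2 ∈ F ∧ a.2.map (H953.emb X M a.1) = H' then
      ∑ S : Finset X, if S.map (H953.emb X M h.choose.1) = S' then g h.choose.2 S else 0
    else 0
  have hg'eq : ∀ H' ∈ F', ∃ a : Fin M × Finset X, a.2 ∈ F ∧ a.2.map (H953.emb X M a.1) = H' ∧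
      ∀ S', g' H' S' = ∑ S : Finset X, if S.map (H953.emb X M a.1) = S' then g a.2 S else 0 := by
    intro H' hH'
    have h := hmemF' H' hH'
    refine ⟨h.choose, h.choose_spec.1, h.choose_spec.2, ?_⟩
    intro S'
    simp only [g']
    rw [dif_pos h]
  have hsum : ∀ (i : Fin M) (c : Finset X → ℝ) (w : Finset (Fin M × X) → ℝ)
      (W' : Finset (Fin M × X)),
      ∑ S' ∈ W'.powerset, w S' * (∑ S : Finset X, if S.map (H953.emb X M i) = S' then c S else 0)
        = ∑ S ∈ (slice M i W').powerset, w (S.map (H953.emb X M i)) * c S := by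
    intro i c w W'
    simp only [Finset.mul_sum]
    rw [Finset.sum_comm]
    have h1 : ∀ S : Finset X, ∑ S' ∈ W'.powerset,
        w S' * (if S.map (H953.emb X M i) = S' then c S else 0)
        = if S ⊆ slice M i W' then w (S.map (H953.emb X M i)) * c S else 0 := by
      intro S
      simp only [mul_ite, mul_zero]
      rw [Finset.sum_ite_eq]
      simp only [mem_powerset, map_sub_iff]
    rw [Finset.sum_congr rfl (fun S _ => h1 S), ← Finset.sum_filter]
    apply Finset.sum_congr _ (fun _ _ => rfl)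
    ext S
    simp only [mem_powerset, mem_filter, mem_univ, true_and]
  have hslmap : ∀ (i : Fin M) (H : Finset X), slice M i (H.map (H953.emb X M i)) = H := by
    intro i H
    ext x
    rw [mem_slice, mem_map]
    constructor
    · rintro ⟨y, hy, hyx⟩
      simp only [H953.emb_apply, Prod.mk.injEq, true_and] at hyx
      rwa [← hyx]
    · intro hx
      exact ⟨x, hx, rfl⟩
  have hcore := core F' g'
    (by
      intro H' hH' S'
      obtain ⟨a, ha, _, heq⟩ := hg'eq H' hH'
      rw [heq]
      exact Finset.sum_nonneg (fun S _ => by split_ifs; exacts [hg a.2 ha S, le_rfl]))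
    (by
      intro H' hH'
      obtain ⟨a, ha, hmap, heq⟩ := hg'eq H' hH'
      have h1 := hsum a.1 (g a.2) (fun _ => 1) H'
      simp only [one_mul] at h1
      rw [Finset.sum_congr rfl (fun S' _ => heq S'), h1, ← hmap, hslmap]
      exact hF a.2 ha)
    (fun y => r y.2 / 214) (fun y => by have := hr0 y.2; positivity)
    (by
      intro G' hG'
      exact H953.copies_cost M F (fun x => r x / 214) (fun x => by have := hr0 x; positivity) ε
        (fun G hG => hmin G (by rw [h𝒞, mem_filter]; exact ⟨mem_univ _, hG⟩)) hM1 G' hG')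
    (fun y => r y.2) (fun y => by have := hr0 y.2; linarith only [this]) (fun y => hr1 y.2)
    (fun W' => ∑ i : Fin M, b (slice M i W'))
    (by
      intro H' hH' W'
      obtain ⟨a, ha, hmap, heq⟩ := hg'eq H' hH'
      rw [Finset.sum_congr rfl (fun S' _ => by rw [heq S']),
        hsum a.1 (g a.2) (fun S' => 2 ^ S'.card) W']
      simp only [Finset.card_map]
      refine (hb a.2 ha _).trans ?_
      exact Finset.single_le_sum (f := fun i : Fin M => b (slice M i W'))
        (fun i _ => hb0 _) (mem_univ a.1))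
  have hfin : ∑ W' : Finset (Fin M × X), PP (fun y : Fin M × X => r y.2) W' *
      ∑ i : Fin M, b (slice M i W') = M * E := by
    simp only [Finset.mul_sum]
    rw [Finset.sum_comm, Finset.sum_congr rfl (fun i _ => slice_exp M i r b), ← hE,
      Finset.sum_const, Finset.card_univ, Fintype.card_fin, nsmul_eq_mul]
  rw [hfin] at hcore
  have hMpos : (0 : ℝ) < M := by exact_mod_cast hM0
  nlinarith only [hcore, hM2, hε1, hcon, hMpos]

end Vale.Agent.P034.H52
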